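import Vale.Agent.P014U.Sh.Br
import Vale.Agent.P014T.Tv.Md

/-! # P014U: the invariants of two equations of the same curve -/

set_option autoImplicit false
set_option linter.all false

open WeierstrassCurve NumberField
open scoped Classical

noncomputable section

namespace Vale.Agent.P014U.Tv

variable [Pp]

export Vale.Agent.P014T.Tv (ex_cj ex_ov ex_ovs per0 per tr up_tr tor_tr bas_tr tors_tr can_tr reg_tr)

open Vale.Agent.P014 (shaPrimary)
open P014T.Sm (Md)

variable {E E' : WeierstrassCurve ℚ} {u r s t u' r' s' t' : ℚ} {A B : ℤ} (h : Md E A B u r s t)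
  (h' : Md E' A B u' r' s' t') [E.IsElliptic] [E'.IsElliptic]
include h h'

theorem sha_tr : Nat.card (shaPrimary E pp) = Nat.card (shaPrimary E' pp) ∧
    (Finite (shaPrimary E pp) ↔ Finite (shaPrimary E' pp)) := by
  obtain ⟨c, hc⟩ := ex_cj
  obtain ⟨P, hP⟩ := ex_ovs
  have a : ∀ l : ℕ, l.Prime → (l : ℤ) ∣ 2 * pp * (4 * A ^ 3 + 27 * B ^ 2) →
      l ∈ (2 * pp * (4 * A ^ 3 + 27 * B ^ 2)).natAbs.primeFactors := fun l p d =>
    Nat.mem_primeFactors.2 ⟨p, Int.natCast_dvd.1 d,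
      Int.natAbs_ne_zero.2 (mul_ne_zero (mul_ne_zero two_ne_zero (Nat.cast_ne_zero.2 pp_ne)) h.hD)⟩
  have b := fun p (m : p ∈ (2 * pp * (4 * A ^ 3 + 27 * B ^ 2)).natAbs.primeFactors) =>
    hP p (Nat.prime_of_mem_primeFactors m)
  exact ⟨(Sh.card_sha h a hc b).trans (Sh.card_sha h' a hc b).symm,
    (Sh.fin_sha h a hc b).trans (Sh.fin_sha h' a hc b).symm⟩

end Vale.Agent.P014U.Tv
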