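import Vale.Agent.P014U.St
import Vale.Agent.P014U.Tv.Md
import Vale.Agent.P014T.Tv.Inv

/-! # P014U: the discrepancy depends neither on the equation nor on the set of primes -/

set_option autoImplicit false
set_option linter.all false

open WeierstrassCurve
open scoped Classical

noncomputable section

namespace Vale.Agent.P014U.Tv

variable [Pp]

export Vale.Agent.P014T.Tv (q1 kp q1_eq q1_ne q1_good tn_ne kp_ne kp_eq reg_eq)

open Vale.Agent.P014 (realPeriod torsionOrder shaPrimary)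
open P004N P004N.T8 P004N.H169 P004N.H169.LF
open Lc (Wq tm np)
open P014T.Lk (P1)
open P014T (IsBasisModTorsion regulator)
open P014T.Sm (Md)
open Top

/-- the formula with all Euler factors and without local indices -/
def Fl (E : WeierstrassCurve ℚ) (k : ℕ) (v : ℤ) : Prop :=
  ∃ (L : ℂ → ℂ) (Q : Fin k → E.toAffine.Point) (ρ : ℚ),
    IsLh (cE E) L ∧ analyticOrderAt L 1 = k ∧ IsBasisModTorsion E Q ∧ Finite (shaPrimary E pp) ∧
    ρ ≠ 0 ∧ padicValRat pp ρ = v ∧ iteratedDeriv k L 1 / (k.factorial : ℂ) = (ρ : ℂ) *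
      ((realPeriod E * regulator E Q * (Nat.card (shaPrimary E pp) : ℝ) /
        (torsionOrder E : ℝ) ^ 2 : ℝ) : ℂ)

variable {E E' : WeierstrassCurve ℚ} {W : WeierstrassCurve ℤ} {A B v v' : ℤ} {S T : Finset ℕ}
  {u r s t u' r' s' t' : ℚ} {k p : ℕ}

theorem kp_mono (h : Bd W S) (l : S ⊆ T) (hT : Pm T) : kp W T = kp W S :=
  (Finset.prod_subset l fun p m n => by
    have g : ¬ (p : ℤ) ∣ W.Δ := fun d => n (h.2 p (hT p m) (d.mul_left _))
    rw [Lc.tm_good W g, Nat.cast_one, one_mul, ← q1_good (hT p m) g,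
      div_self (q1_ne (hT p m))]).symm

theorem kp_md (hΔ : W.Δ ≠ 0) (h : Md (Wq W) A B u r s t) (hT : Pm T) (h2 : pp ∈ T) :
    padicValRat pp (kp (sI A B) T) = padicValRat pp (kp W T) + padicValRat pp u := by
  have := Lc.ell hΔ
  have d := Lc.sh_ne h.hD
  have := Lc.ell d
  have e : q1 (Wq (sI A B)) = q1 (Wq W) := funext fun p => by
    simp only [q1, P014T.Lk.lf_md h, sI, P014T.Lk.lf_md (Lc.md_sh A B)]
  have a : ∀ {W : WeierstrassCurve ℤ}, W.Δ ≠ 0 →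
      ((∏ p ∈ T, tm (Wq W) p * np W p : ℕ) : ℚ) ≠ 0 := fun k =>
    Nat.cast_ne_zero.2 (Finset.prod_ne_zero_iff.2 fun p m => @Lc.tn_ne _ p ⟨hT p m⟩ k)
  have b : ∏ p ∈ T, p * q1 (Wq W) p ≠ 0 := Finset.prod_ne_zero_iff.2 fun p m =>
    mul_ne_zero (Nat.cast_ne_zero.2 (hT p m).ne_zero) (q1_ne (hT p m))
  rw [kp_eq, kp_eq, e, padicValRat.div (a hΔ) b, padicValRat.div (a (W := sI A B) d) b,
    padicValRat.of_nat, padicValRat.of_nat, sI, Lc.val_prod hT h2 hΔ h]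
  ring

/-- **putting the Euler factors back** -/
theorem dis_iff (hΔ : W.Δ ≠ 0) (hS : Pm S) :
    Dis W S k v ↔ Fl (Wq W) k (v + padicValRat pp (kp W S)) := by
  have s0 : ∏ p ∈ S, p ≠ 0 := Finset.prod_ne_zero_iff.2 fun p m => (hS p m).ne_zero
  have b := fun p (hp : p.Prime) (_ : p ∣ ∏ p ∈ S, p) => cE_le (Wq W) hp
  have k0 := kp_ne hΔ hS
  have q0 : ((∏ p ∈ S, q1 (Wq W) p : ℚ) : ℂ) ≠ 0 :=
    Rat.cast_ne_zero.2 (Finset.prod_ne_zero_iff.2 fun p m => q1_ne (hS p m))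
  have e : ∀ {L M}, IsLh (cE (Wq W)) L → IsLh (inc (∏ p ∈ S, p) (cE (Wq W))) M →
      analyticOrderAt M 1 = analyticOrderAt L 1 ∧ (analyticOrderAt L 1 = k →
        iteratedDeriv k M 1 = (∏ p ∈ S, q1 (Wq W) p : ℚ) * iteratedDeriv k L 1) := fun hL hM => by
    obtain ⟨-, x, y⟩ := P014T.Lk.eul (cE_ldr _) s0 b hL hM
    refine ⟨x, fun o => ?_⟩
    rw [y k o.ge, Nat.primeFactors_prod hS]
    simp only [← q1_eq]
    push_cast
    rfl
  have f : ((∏ p ∈ S, (tm (Wq W) p * np W p / p : ℝ) : ℝ) : ℂ) =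
      kp W S * (∏ p ∈ S, q1 (Wq W) p : ℚ) := by
    rw [← Rat.cast_mul, P014T.Tv.kp, ← Finset.prod_mul_distrib,
      Finset.prod_congr rfl fun p m => div_mul_cancel₀ _ (q1_ne (hS p m))]
    push_cast
    rfl
  constructor
  · rintro ⟨M, Q, ρ, a1, a2, a3, a4, a5, rfl, a7⟩
    have l := P014T.Lk.up (cE_ldr _) s0 b a1
    obtain ⟨x, y⟩ := e l a1
    refine ⟨_, Q, ρ * kp W S, l, x ▸ a2, a3, a4, mul_ne_zero a5 k0, padicValRat.mul a5 k0,
      mul_left_cancel₀ q0 ?_⟩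
    rw [← mul_div_assoc, ← y (x ▸ a2), a7, Complex.ofReal_div, Complex.ofReal_mul _ (∏ _ ∈ _, _), f,
      Complex.ofReal_div, Rat.cast_mul]
    ring
  · rintro ⟨L, Q, ρ, a1, a2, a3, a4, a5, a6, a7⟩
    have l := P014T.Lk.down (cE_ldr _) s0 a1
    obtain ⟨x, y⟩ := e a1 l
    refine ⟨_, Q, ρ / kp W S, l, x.trans a2, a3, a4, div_ne_zero a5 k0, by
      rw [padicValRat.div a5 k0, a6, add_sub_cancel_right], ?_⟩
    have : (kp W S : ℂ) ≠ 0 := Rat.cast_ne_zero.2 k0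
    rw [y a2, mul_div_assoc, a7, Complex.ofReal_div, Complex.ofReal_div,
      Complex.ofReal_mul _ (∏ _ ∈ _, _), f, Rat.cast_div]
    field_simp

/-- **change of the equation** -/
theorem Fl.md [E.IsElliptic] [E'.IsElliptic] (h : Md E A B u r s t) (h' : Md E' A B u' r' s' t')
    (f : Fl E k v) : Fl E' k (v + padicValRat pp u - padicValRat pp u') := by
  obtain ⟨L, Q, ρ, a1, a2, a3, a4, a5, rfl, a7⟩ := f
  have d := div_ne_zero h.ne h'.ne
  refine ⟨L, _, ρ * |u / u'|, ?_, a2, bas_tr h h' a3, (sha_tr h h').2.1 a4,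
    mul_ne_zero a5 (abs_ne_zero.2 d), ?_, ?_⟩
  · rwa [show cE E' = cE E from funext fun n => by rw [cE, cE, P014T.Lk.lf_md h, P014T.Lk.lf_md h']]
  · rw [padicValRat.mul a5 (abs_ne_zero.2 d), add_sub_assoc, ← padicValRat.div h.ne h'.ne]
    rcases abs_choice (u / u') with e | e <;> rw [e]
    rw [padicValRat.neg]
  · rw [a7, reg_tr, per h h', (sha_tr h h').1, tors_tr h h']
    generalize |u / u'| = x
    push_cast
    ring

theorem Dis.mono (hΔ : W.Δ ≠ 0) (h : Bd W S) (l : S ⊆ T) (hT : Pm T) : Dis W S k v ↔ Dis W T k v := by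
  rw [dis_iff hΔ h.1, dis_iff hΔ hT, kp_mono h l hT]

/-- **invariance** -/
theorem inv : INV := fun W A B u r s t S S' k v hΔ h b b' => by
  have := Lc.ell hΔ
  have d := Lc.sh_ne h.hD
  have := Lc.ell d
  have hT : Pm (S ∪ S') := fun p m => (Finset.mem_union.1 m).elim (b.1 p) (b'.1 p)
  have e := kp_md hΔ h hT (Finset.mem_union_left _ (b.2 pp pp_prime ((dvd_mul_left _ _).mul_right _)))
  rw [kp_mono b Finset.subset_union_left hT, kp_mono b' Finset.subset_union_right hT] at e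
  rw [dis_iff hΔ b.1, dis_iff (W := sI A B) d b'.1, e]
  refine ⟨fun f => ?_, fun f => ?_⟩
  · simpa only [padicValRat.one, sub_zero, add_assoc, sI] using f.md h (Lc.md_sh A B)
  · simpa only [padicValRat.one, add_zero, ← add_assoc, add_sub_cancel_right] using
      Fl.md (Lc.md_sh A B) h f

/-! ### uniqueness -/

theorem Fl.uniq [E.IsElliptic] (hk : k ≤ 1) (f : Fl E k v) (f' : Fl E k v') : v = v' := by
  obtain ⟨L, Q, ρ, a1, a2, a3, -, -, rfl, a7⟩ := f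
  obtain ⟨L', Q', ρ', b1, -, b3, -, -, rfl, b7⟩ := f'
  have n : iteratedDeriv k L 1 / (k.factorial : ℂ) ≠ 0 := by
    refine div_ne_zero (fun z => ?_) (Nat.cast_ne_zero.2 k.factorial_ne_zero)
    have a := a1.1 1 P014T.Lk.m1
    have := (natCast_le_analyticOrderAt_iff_iteratedDeriv_eq_zero a (n := k + 1)).2 fun j l =>
      (Nat.lt_succ_iff_lt_or_eq.1 l).elim
        ((natCast_le_analyticOrderAt_iff_iteratedDeriv_eq_zero a).1 a2.ge j) fun e => e ▸ z
    rw [a2, Nat.cast_le] at this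
    omega
  rw [← P014T.Lk.der a1 b1, ← reg_eq hk a3 b3, a7] at b7
  rw [a7] at n
  rw [Rat.cast_injective (mul_right_cancel₀ (right_ne_zero_of_mul n) b7)]

theorem Dis.uniq (hΔ : W.Δ ≠ 0) (hS : Pm S) (hk : k ≤ 1) (f : Dis W S k v) (f' : Dis W S k v') :
    v = v' :=
  haveI := Lc.ell hΔ
  add_right_cancel (((dis_iff hΔ hS).1 f).uniq hk ((dis_iff hΔ hS).1 f'))

/-- from some set of primes to all -/
theorem Di.all (hD : El A B) (f : Di A B k v) (b : Bd (sI A B) S) : Dis (sI A B) S k v :=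
  let ⟨_, a, c⟩ := f
  (inv _ _ _ _ _ _ _ _ _ _ _ (Lc.sh_ne hD) (Lc.md_sh A B) a b).1 c

theorem Di.uniq (hD : El A B) (hk : k ≤ 1) (f : Di A B k v) (f' : Di A B k v') : v = v' :=
  let ⟨_, a, c⟩ := f
  Dis.uniq (Lc.sh_ne hD) a.1 hk c (Di.all hD f' a)

end Vale.Agent.P014U.Tv
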